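import Vale.Agent.P253Z.T2.WR.Lin

/-!
# P253Z, T2, block WR: the Wronskian matrix in coordinates
-/

open scoped ContDiff Topology Matrix
open Filter
open Vale.Agent.P272.K (Cm)

noncomputable section

namespace Vale.Agent.P253Z.T2.Wro

variable {n : ℕ} {f f' u : Cm n → ℂ} {g g' : Fin n → Cm n → ℂ} {z : Cm n}

/-- the matrix with the columns `f dg_i - g_i df` -/
def TM (f : Cm n → ℂ) (g : Fin n → Cm n → ℂ) (z : Cm n) : Matrix (Fin n) (Fin n) ℂ :=
  Matrix.of fun j i => f z * fderiv ℂ (g i) z (Pi.single j 1) - g i z * fderiv ℂ f z (Pi.single j 1)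

theorem TM_congr (h : f =ᶠ[𝓝 z] f') (h' : ∀ i, g i =ᶠ[𝓝 z] g' i) : TM f g z = TM f' g' z := by
  ext j i
  simp only [TM, Matrix.of_apply, h.fderiv_eq, (h' i).fderiv_eq, h.self_of_nhds,
    (h' i).self_of_nhds]

theorem TM_mul (hu : DifferentiableAt ℂ u z) (hf : DifferentiableAt ℂ f z)
    (hg : ∀ i, DifferentiableAt ℂ (g i) z) :
    TM (fun y => u y * f y) (fun i y => u y * g i y) z = u z ^ 2 • TM f g z := by
  ext j i
  simp only [TM, Matrix.of_apply, Matrix.smul_apply, fderiv_fun_mul hu hf,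
    fderiv_fun_mul hu (hg i), add_apply, smul_apply, smul_eq_mul]
  ring

theorem lin_eq (L : Cm n →L[ℂ] ℂ) (v : Cm n) : L v = ∑ j, v j * L (Pi.single j 1) := by
  conv_lhs => rw [pi_eq_sum_univ' v]
  simp only [map_sum, map_smul, smul_eq_mul]

theorem TM_sum (i : Fin n) (v : Cm n) :
    ∑ j, TM f g z j i * v j = f z * fderiv ℂ (g i) z v - g i z * fderiv ℂ f z v := by
  rw [lin_eq _ v, lin_eq (fderiv ℂ f z) v, Finset.mul_sum, Finset.mul_sum,
    ← Finset.sum_sub_distrib]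
  exact Finset.sum_congr rfl fun j _ => by rw [TM, Matrix.of_apply]; ring

theorem TM_comp {τ : Cm n → Cm n} (hτ : DifferentiableAt ℂ τ z)
    (hf : DifferentiableAt ℂ f (τ z)) (hg : ∀ i, DifferentiableAt ℂ (g i) (τ z)) :
    TM (fun y => f (τ y)) (fun i y => g i (τ y)) z =
      (LinearMap.toMatrix' (fderiv ℂ τ z : Cm n →ₗ[ℂ] Cm n))ᵀ * TM f g (τ z) := by
  ext j i
  rw [TM, Matrix.of_apply, fderiv_fun_comp z hf hτ, fderiv_fun_comp z (hg i) hτ,
    ContinuousLinearMap.comp_apply, ContinuousLinearMap.comp_apply, ← TM_sum, Matrix.mul_apply]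
  exact Finset.sum_congr rfl fun p _ => by
    rw [Matrix.transpose_apply, LinearMap.toMatrix'_apply, mul_comm]
    rfl

theorem TM_coord : TM (fun _ => 1) (fun i (y : Cm n) => y i) z = 1 := by
  ext j i
  have h : fderiv ℂ (fun y : Cm n => y i) z = ContinuousLinearMap.proj i :=
    (hasFDerivAt_apply i z).fderiv
  simp [TM, h, Matrix.one_apply, Pi.single_apply, eq_comm]

theorem TM_sm (hf : AnalyticAt ℂ f z) (hg : ∀ i, AnalyticAt ℂ (g i) z) :
    P272.K.C2.MC ∞ (TM f g) z := fun j i => by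
  have hd : ∀ {t : Cm n → ℂ}, AnalyticAt ℂ t z → ∀ v,
      AnalyticAt ℂ (fun z => fderiv ℂ t z v) z := fun ht v =>
    ((ContinuousLinearMap.apply ℂ ℂ v).analyticAt _).comp ht.fderiv
  exact ((hf.mul (hd (hg i) _)).sub ((hg i).mul (hd hf _))).contDiffAt.restrict_scalars ℝ

end Vale.Agent.P253Z.T2.Wro
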