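import Vale.Agent.P253Z.B1b.Lin
import Vale.Agent.P272.K.C2.Mat

/-!
# P253Z, T2, block WR: the dual norm of a family of covectors
-/

open scoped ContDiff Topology ComplexConjugate ComplexOrder Matrix
open Filter
open Vale.Agent.P272.K (Cm dz dzb cHess)

noncomputable section

namespace Vale.Agent.P253Z.T2.Wro

variable {n : ℕ} {H T J : Matrix (Fin n) (Fin n) ℂ}

/-- the sum of the squares of the dual norms of the columns of `T` -/
def qf (H T : Matrix (Fin n) (Fin n) ℂ) : ℝ := (Tᴴ * H⁻¹ * T).trace.re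

theorem qf_nonneg (hH : H.PosDef) (T : Matrix (Fin n) (Fin n) ℂ) : 0 ≤ qf H T :=
  (Complex.nonneg_iff.1 (hH.inv.posSemidef.conjTranspose_mul_mul_same T).trace_nonneg).1

theorem qf_smul (c : ℂ) : qf H (c • T) = ‖c‖ ^ 2 * qf H T := by
  rw [qf, qf, Matrix.conjTranspose_smul, Matrix.smul_mul, Matrix.smul_mul, Matrix.mul_smul,
    smul_smul, Matrix.trace_smul, smul_eq_mul, RCLike.star_def, Complex.conj_mul',
    ← Complex.ofReal_pow, Complex.re_ofReal_mul]

theorem qf_one : qf H 1 = (H⁻¹).trace.re := by simp [qf]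

theorem qf_pb (hJ : J.det ≠ 0) : qf (Jᵀ * H * J.map (starRingEnd ℂ)) (Jᵀ * T) = qf H T := by
  have e : (Jᵀ)ᴴ = J.map (starRingEnd ℂ) := rfl
  have h1 : IsUnit (Jᵀ).det := by rw [Matrix.det_transpose]; exact hJ.isUnit
  have h2 : IsUnit (Jᵀ)ᴴ.det := by rw [Matrix.det_conjTranspose]; exact h1.star
  rw [qf, qf, ← e, Matrix.conjTranspose_mul, Matrix.mul_inv_rev, Matrix.mul_inv_rev]
  simp only [Matrix.mul_assoc]
  rw [Matrix.mul_nonsing_inv_cancel_left _ _ h2, Matrix.nonsing_inv_mul_cancel_left _ _ h1]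

theorem qf_le (hH : H.PosDef) {L : ℝ} (hL : 0 ≤ L) (h : ∀ (i : Fin n) (u : Cm n),
    ‖∑ j, T j i * u j‖ ^ 2 ≤ L * (∑ j, ∑ k, H j k * (u j * conj (u k))).re) :
    qf H T ≤ n * L := by
  have h0 : ∀ i, ((Tᴴ * H⁻¹ * T) i i).re ≤ L := fun i => by
    obtain ⟨θ, hθ⟩ : ∃ θ : Cm n, θ = fun j => T j i := ⟨_, rfl⟩
    have e1 : (Tᴴ * H⁻¹ * T) i i = star θ ⬝ᵥ (H⁻¹ *ᵥ θ) := by
      rw [Matrix.mul_assoc, hθ]; rfl
    have e2 : H *ᵥ (H⁻¹ *ᵥ θ) = θ := by
      rw [Matrix.mulVec_mulVec, Matrix.mul_nonsing_inv _ hH.det_pos.ne'.isUnit, Matrix.one_mulVec]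
    have h1 := h i (star (H⁻¹ *ᵥ θ))
    rw [← MC.dot_eq, e2, Matrix.star_dotProduct] at h1
    have e3 : ∑ j, T j i * star (H⁻¹ *ᵥ θ) j = star (star θ ⬝ᵥ (H⁻¹ *ᵥ θ)) := by
      rw [hθ]
      simp [dotProduct]
    rw [e3, norm_star] at h1
    rw [e1]
    generalize star θ ⬝ᵥ (H⁻¹ *ᵥ θ) = q at h1
    have h2 : q.re ^ 2 ≤ L * q.re := by
      refine le_trans ?_ (h1.trans_eq (by simp))
      rw [← sq_abs]
      exact pow_le_pow_left₀ (abs_nonneg _) (Complex.abs_re_le_norm q) 2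
    by_contra h3
    nlinarith
  rw [qf, Matrix.trace, Complex.re_sum]
  simpa using Finset.sum_le_card_nsmul Finset.univ _ L fun i _ => h0 i

theorem det_le (hH : H.PosDef) : H.det.re ≤ H.trace.re ^ n := by
  rw [hH.isHermitian.det_eq_prod_eigenvalues, hH.isHermitian.trace_eq_sum_eigenvalues]
  have h2 := Finset.prod_le_prod (s := Finset.univ) (fun i _ => (hH.eigenvalues_pos i).le)
    fun i hi => Finset.single_le_sum (fun i _ => (hH.eigenvalues_pos i).le) hi
  simpa [← Complex.ofReal_prod] using h2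

theorem inv_det_le (hH : H.PosDef) : (H.det.re)⁻¹ ≤ (H⁻¹).trace.re ^ n := by
  refine le_trans (le_of_eq ?_) (det_le hH.inv)
  have h1 := (Complex.pos_iff.1 hH.det_pos).2
  rw [Matrix.det_nonsing_inv, Ring.inverse_eq_inv', ← Complex.re_add_im H.det, ← h1]
  simp

theorem qf_sm {A B : Cm n → Matrix (Fin n) (Fin n) ℂ} {z : Cm n} (hA : P272.K.C2.MC ∞ A z)
    (hB : P272.K.C2.MC ∞ B z) (h : (A z).det ≠ 0) : ContDiffAt ℝ ∞ (fun y => qf (A y) (B y)) z :=
  Complex.reCLM.contDiff.contDiffAt.comp z ((hB.conjTranspose.mul (hA.inv h)).mul hB).trace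

open P272.K.C2 in
/-- the logarithm of a sum of two exponentials -/
theorem lse {a b : Cm n → ℝ} {z : Cm n} (ha : ContDiffAt ℝ 2 a z) (hb : ContDiffAt ℝ 2 b z)
    (h1 : (cHess a z).PosSemidef) (h2 : (cHess b z).PosSemidef) :
    (cHess (fun y => Real.log (Real.exp (a y) + Real.exp (b y))) z).PosSemidef := by
  have e0 : (fun y => Real.log (Real.exp (a y) + Real.exp (b y))) =
      fun y => a y + Real.log (1 + Real.exp (b y - a y)) := by
    funext y
    rw [← Real.log_exp (a y), ← Real.log_mul (Real.exp_pos _).ne' (by positivity), Real.log_exp,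
      mul_add, mul_one, ← Real.exp_add, add_sub_cancel]
  have hu : ContDiffAt ℝ 2 (fun y => b y - a y) z := hb.sub ha
  have d1 : ∀ s : ℝ, HasDerivAt (fun s => Real.log (1 + Real.exp s))
      (1 - (1 + Real.exp s)⁻¹) s := fun s => by
    refine (((Real.hasDerivAt_exp s).const_add 1).log (by positivity)).congr_deriv ?_
    field_simp
    ring
  have d2 : ∀ s : ℝ, HasDerivAt (fun s => 1 - (1 + Real.exp s)⁻¹)
      (Real.exp s / (1 + Real.exp s) ^ 2) s := fun s => by
    refine ((((Real.hasDerivAt_exp s).const_add 1).inv (by positivity)).const_sub 1).congr_deriv ?_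
    ring
  obtain ⟨E, hE⟩ : ∃ E, E = Real.exp (b z - a z) := ⟨_, rfl⟩
  have E0 : 0 < E := hE ▸ Real.exp_pos _
  have e1 : cHess (fun y => Real.log (Real.exp (a y) + Real.exp (b y))) z =
      (((1 + E)⁻¹ : ℝ) : ℂ) • cHess a z + ((1 - (1 + E)⁻¹ : ℝ) : ℂ) • cHess b z +
        ((E / (1 + E) ^ 2 : ℝ) : ℂ) • Matrix.vecMulVec
          (fun j => dz j (fun y => ((b y - a y : ℝ) : ℂ)) z)
          (star fun j => dz j (fun y => ((b y - a y : ℝ) : ℂ)) z) := by
    rw [e0, cHess_add ha ((contDiffAt_const.add hu.exp).log (by positivity))]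
    ext j k
    rw [Matrix.add_apply, cHess_comp (u := fun y => b y - a y) (Eventually.of_forall d1) (d2 _) hu,
      cHess_sub hb ha, dzb_real k (hu.differentiableAt two_ne_zero), ← hE]
    simp only [Matrix.add_apply, Matrix.smul_apply, Matrix.sub_apply, Matrix.vecMulVec_apply,
      smul_eq_mul, Pi.star_apply, RCLike.star_def]
    push_cast
    ring
  rw [e1]
  refine ((h1.smul (Complex.zero_le_real.2 (by positivity))).add
    (h2.smul (Complex.zero_le_real.2 (sub_nonneg.2 (inv_le_one_of_one_le₀ (by linarith)))))).add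
    ((Matrix.posSemidef_vecMulVec_self_star _).smul (Complex.zero_le_real.2 (by positivity)))

/-- positivity of the complex Hessian is a closed condition -/
theorem psd_of_freq {u : Cm n → ℝ} {z : Cm n} (hu : ContDiffAt ℝ 2 u z)
    (h : ∃ᶠ y in 𝓝 z, (cHess u y).PosSemidef) : (cHess u z).PosSemidef := by
  refine (MC.psd (P272.K.cHess_isHermitian hu)).2 fun v => ?_
  have h1 : ContinuousAt (fun y => (∑ j, ∑ k, cHess u y j k * (v j * conj (v k))).re) z :=
    Complex.continuous_re.continuousAt.comp (tendsto_finsetSum _ fun j _ =>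
      tendsto_finsetSum _ fun k _ => (P272.K.C2.contDiffAt_cHess (m := 0) hu (by norm_num)
        j k).continuousAt.mul continuousAt_const)
  exact isClosed_Ici.mem_of_frequently_of_tendsto
    (h.mono fun y hy => (MC.psd hy.isHermitian).1 hy v) h1

end Vale.Agent.P253Z.T2.Wro
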